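import Vale.Agent.P252G.Div.Div

/-!
Homogeneity in `U = du / v` and the vanishing of the total divergence.
-/

open Finset Topology Filter MeasureTheory Set

noncomputable section

set_option maxSynthPendingDepth 3

namespace Vale.Agent.P252G.Calc

variable {n : ℕ} {u : E n → ℝ} {Ω : Set (E n)}

/-- the covector fields with a free second covector -/
def wfG (u : (E n) → ℝ) (a : (E n) → (E n) →L[ℝ] ℝ) : Fld → (E n) → (E n) →L[ℝ] ℝ
  | .l => DLf u
  | .u => a
  | .ml => fun y => D2L u y (zL u y)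
  | .mu => fun y => D2L u y (upv u y (a y))
  | .al => fun y => CC u y (zL u y) (zL u y)
  | .au => fun y => CC u y (zL u y) (upv u y (a y))
  | .bu => fun y => CC u y (upv u y (a y)) (upv u y (a y))

/-- the monomials with a free second covector -/
def monoG (u : (E n) → ℝ) (a : (E n) → (E n) →L[ℝ] ℝ) (k : ℕ × ℕ × ℕ) (y : (E n)) : ℝ :=
  DLf u y (zL u y) ^ k.1 * DLf u y (upv u y (a y)) ^ k.2.1 * a y (upv u y (a y)) ^ k.2.2

/-- The field written without poles. -/
def fieldT (u : (E n) → ℝ) (σ h : ℝ) (d : ℕ) (F : Fld) (k : ℕ × ℕ × ℕ) (y : (E n)) : (E n) :=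
  (h - u y) ^ d • ((Real.exp (-((n : ℝ) + 2) * σ * Lf u y) * monoG u (du u) k y) • upv u y (wfG u (du u) F y))

lemma monoF_eq (h : ℝ) (k : ℕ × ℕ × ℕ) (y : (E n)) :
    monoF u h k y = ((h - u y)⁻¹) ^ (k.2.1 + 2 * k.2.2) * monoG u (du u) k y := by
  simp only [monoF, monoG, zU, Uf, upv, map_smul, smul_apply, smul_eq_mul, mul_pow, pow_add,
    pow_mul]
  ring

lemma wf_eq (h : ℝ) (F : Fld) (y : (E n)) :
    wf u h F y = ((h - u y)⁻¹) ^ F.degU • wfG u (du u) F y := by
  cases F <;> simp [wf, wfG, Fld.degU, zU, Uf, upv, sq, smul_smul]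

lemma field_eq (σ h : ℝ) {m : ℕ} (F : Fld) (k : ℕ × ℕ × ℕ) (hm : udeg F k ≤ m) {y : (E n)}
    (hy : h - u y ≠ 0) : field u σ h m F k y = fieldT u σ h (m - udeg F k) F k y := by
  obtain ⟨d, rfl⟩ := Nat.exists_eq_add_of_le hm
  rw [Nat.add_sub_cancel_left, field, fieldT, monoF_eq, wf_eq]
  simp only [upv, map_smul, smul_smul]
  congr 1
  rw [udeg, show F.degU + k.2.1 + 2 * k.2.2 + d = (k.2.1 + 2 * k.2.2) + F.degU + d by ring,
    pow_add, pow_add]
  have h1 : ∀ a : ℕ, ((h - u y)⁻¹) ^ a * (h - u y) ^ a = 1 := fun a => by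
    rw [← mul_pow, inv_mul_cancel₀ hy, one_pow]
  linear_combination ((h - u y) ^ d * Real.exp (-((n : ℝ) + 2) * σ * Lf u y) * monoG u (du u) k y) *
    h1 (F.degU + (k.2.1 + 2 * k.2.2))

namespace Smooth

lemma cd_fieldT (S : Smooth Ω u) (σ h : ℝ) (d : ℕ) (F : Fld) (k : ℕ × ℕ × ℕ) :
    ContDiffOn ℝ (↑(⊤ : ℕ∞)) (fieldT u σ h d F k) Ω := by
  have hzL := S.cd_upv S.cd_DLf
  have hzd := S.cd_upv S.cd_du
  have hw : ContDiffOn ℝ (↑(⊤ : ℕ∞)) (wfG u (du u) F) Ω := by
    cases F
    · exact S.cd_DLf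
    · exact S.cd_du
    · exact S.cd_D2L.clm_apply hzL
    · exact S.cd_D2L.clm_apply hzd
    · exact (S.cd_CC.clm_apply hzL).clm_apply hzL
    · exact (S.cd_CC.clm_apply hzL).clm_apply hzd
    · exact (S.cd_CC.clm_apply hzd).clm_apply hzd
  exact ((contDiffOn_const.sub S.smooth).pow d).smul
    (((contDiffOn_const.mul S.cd_Lf).exp.mul
      ((((S.cd_DLf.clm_apply hzL).pow _).mul ((S.cd_DLf.clm_apply hzd).pow _)).mul
        ((S.cd_du.clm_apply hzd).pow _))).smul (S.cd_upv hw))

lemma integral_fieldT (S : Smooth Ω u) (σ h : ℝ) {d : ℕ} (hn : 2 ≤ d) (F : Fld) (k : ℕ × ℕ × ℕ)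
    (hK : IsCompact {x | x ∈ Ω ∧ u x ≤ h}) :
    IntegrableOn (fun x => tr3 (fderiv ℝ (fieldT u σ h d F k) x)) {x | x ∈ Ω ∧ u x < h} volume ∧
      ∫ x in {x | x ∈ Ω ∧ u x < h}, tr3 (fderiv ℝ (fieldT u σ h d F k) x) = 0 := by
  classical
  set K := {x | x ∈ Ω ∧ u x ≤ h} with hKdef
  set O := {x | x ∈ Ω ∧ u x < h} with hOdef
  have hOopen : IsOpen O := S.smooth.continuousOn.isOpen_inter_preimage S.isOpen isOpen_Iio
  have hOK : O ⊆ K := fun x hx => ⟨hx.1, hx.2.le⟩
  have hKΩ : K ⊆ Ω := fun x hx => hx.1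
  set G := fieldT u σ h d F k with hG
  have hGd : ∀ x ∈ Ω, DifferentiableAt ℝ G x := fun x hx =>
    (S.cdAt (S.cd_fieldT σ h d F k) hx).differentiableAt (by simp)
  have hcont : ∀ i, ContinuousOn (fun x => fderiv ℝ G x (sgl i) i) Ω := fun i =>
    (EuclideanSpace.proj i : (E n) →L[ℝ] ℝ).continuous.comp_continuousOn
      ((((S.cd_fieldT σ h d F k).fderiv_of_isOpen S.isOpen (m := (↑(⊤ : ℕ∞))) (by simp)).continuousOn).clm_apply
        continuousOn_const)
  have hint : ∀ i, IntegrableOn (fun x => fderiv ℝ G x (sgl i) i) O volume := fun i =>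
    (((hcont i).mono hKΩ).integrableOn_compact hK).mono_set hOK
  refine ⟨integrable_finsetSum _ fun i _ => hint i, ?_⟩
  simp only [tr3]
  rw [integral_finsetSum _ fun i _ => hint i]
  refine Finset.sum_eq_zero fun i _ => ?_
  set f : (E n) → ℝ := K.indicator fun x => G x i with hf
  have hGi : ∀ x ∈ Ω, HasFDerivAt (fun y => G y i)
      ((EuclideanSpace.proj i : (E n) →L[ℝ] ℝ) ∘L fderiv ℝ G x) x := fun x hx =>
    (EuclideanSpace.proj i : (E n) →L[ℝ] ℝ).hasFDerivAt.comp x (hGd x hx).hasFDerivAt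
  have hd : ∀ x, HasFDerivAt f
      (O.indicator (fun x => (EuclideanSpace.proj i : (E n) →L[ℝ] ℝ) ∘L fderiv ℝ G x) x) x := by
    intro x
    by_cases hxO : x ∈ O
    · rw [indicator_of_mem hxO]
      refine (hGi x hxO.1).congr_of_eventuallyEq ?_
      exact eventually_of_mem (hOopen.mem_nhds hxO) fun y hy => indicator_of_mem (hOK hy) _
    rw [indicator_of_notMem hxO]
    by_cases hxK : x ∈ K
    · have hv : h - u x = 0 := by
        have := le_antisymm hxK.2 (not_lt.1 fun h1 => hxO ⟨hxK.1, h1⟩)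
        linarith
      have h0 : G x = 0 := by
        simp [hG, fieldT, hv, zero_pow (show d ≠ 0 by omega)]
      have hp := HasFDerivAt.pow ((S.dAt S.smooth hxK.1).const_sub h) d
      have h1 : HasFDerivAt G (0 : (E n) →L[ℝ] (E n)) x := by
        have hR : DifferentiableAt ℝ (fun y => (Real.exp (-((n : ℝ) + 2) * σ * Lf u y) * monoG u (du u) k y) •
            upv u y (wfG u (du u) F y)) x := by
          have := S.cdAt (S.cd_fieldT σ h 0 F k) hxK.1
          have h4 := this.differentiableAt (by simp)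
          unfold fieldT at h4
          simpa only [pow_zero, one_smul] using h4
        refine (hp.fun_smul hR.hasFDerivAt).congr_fderiv ?_
        simp [hv, zero_pow (show d ≠ 0 by omega), zero_pow (show d - 1 ≠ 0 by omega)]
      have h2 : HasFDerivAt (fun y => G y i) (0 : (E n) →L[ℝ] ℝ) x := by
        simpa [Function.comp_def] using
          (EuclideanSpace.proj i : (E n) →L[ℝ] ℝ).hasFDerivAt.comp x h1
      refine HasFDerivAt.of_isLittleO ?_
      have h3 := h2.isLittleO
      simp only [zero_apply, sub_zero, hf, indicator_of_mem hxK, h0, PiLp.zero_apply] at h3 ⊢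
      refine (Asymptotics.IsBigO.of_norm_le fun y => ?_).trans_isLittleO h3.norm_left
      exact norm_indicator_le_norm_self (fun y => G y i) y
    · refine (hasFDerivAt_const (0 : ℝ) x).congr_of_eventuallyEq ?_
      exact eventually_of_mem (hK.isClosed.isOpen_compl.mem_nhds hxK) fun y hy =>
        indicator_of_notMem hy _
  have hfd : ∀ x, fderiv ℝ f x (sgl i) = O.indicator (fun x => fderiv ℝ G x (sgl i) i) x := by
    intro x
    rw [(hd x).fderiv]
    by_cases hxO : x ∈ O <;> simp [hxO]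
  have hI : Integrable (fun x => fderiv ℝ f x (sgl i)) := by
    rw [funext hfd, integrable_indicator_iff hOopen.measurableSet]
    exact hint i
  have hfI : Integrable f := by
    rw [hf, integrable_indicator_iff hK.isClosed.measurableSet]
    exact ((EuclideanSpace.proj i : (E n) →L[ℝ] ℝ).continuous.comp_continuousOn
      ((S.cd_fieldT σ h d F k).continuousOn.mono hKΩ)).integrableOn_compact hK
  have := integral_mul_fderiv_eq_neg_fderiv_mul_of_integrable (μ := volume) (f := f)
    (g := fun _ => (1 : ℝ)) (v := sgl i) (by simpa using hI) (by simp) (by simpa using hfI)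
    (fun x _ => (hd x).differentiableAt) (fun x _ => differentiableAt_const _)
  rw [← integral_indicator hOopen.measurableSet, ← funext hfd]
  simpa using this

end Smooth

end Vale.Agent.P252G.Calc
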