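import Vale.Agent.P252G.Div.Spec
import Vale.Agent.P252G.Div.Homog

/-!
The divergence identities on the sections of a solution.
-/

open Finset Topology Filter MeasureTheory Set

noncomputable section

set_option maxSynthPendingDepth 3

namespace Vale.Agent.P252G.Calc

open Vale.Agent.P252G (Sol qX dt lg gdot DivSpec)
open Vale.Agent.P252B (pd)

variable {n : ℕ}

lemma smooth_sol (P : Sol n) : Smooth P.Ω P.u := ⟨P.adm.1, P.adm.2.2.1, P.adm.2.2.2⟩

lemma jet_X {u : (E n) → ℝ} {Ω : Set (E n)} (S : Smooth Ω u) {x : (E n)} (hx : x ∈ Ω) {e : Fin n → (E n)}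
    (he : Smooth.Frame u x e) (h : ℝ) : (jet u h e x).X = qX u x := by
  have h1 := S.tr3_inverse hx ((DLf u x).smulRight (DLf u x))
  rw [S.tr3_inverse_frame hx he] at h1
  refine (h1.trans ?_)
  simp only [ContinuousLinearMap.smulRight_apply, smul_apply, smul_eq_mul, qX, gdot, pd]
  rw [Finset.sum_comm]
  refine Finset.sum_congr rfl fun i _ => Finset.sum_congr rfl fun j _ => ?_
  change DLf u x (sgl j) * DLf u x (sgl i) * _ = _ * DLf u x (sgl i) * DLf u x (sgl j)
  ring

/-- The divergence identities. -/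
theorem divSpec_of_compact (hcpt : ∀ (P : Sol n) (h : ℝ), IsCompact (P.csec h)) (σ : ℝ) (m : ℕ) :
    DivSpec n σ m := by
  classical
  intro P h _
  have S := smooth_sol P
  have hop : IsOpen (P.sec h) := S.smooth.continuousOn.isOpen_inter_preimage S.isOpen isOpen_Iio
  have hms : MeasurableSet (P.sec h) := hop.measurableSet
  set J : (E n) → Jet n := fun x =>
    if hx : x ∈ P.Ω then jet P.u h (S.exists_frame hx).choose x else jet P.u h (fun _ => 0) x
    with hJ
  refine ⟨J, fun x hx => ?_, fun F k hm => ?_⟩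
  · have he := (S.exists_frame hx.1).choose_spec
    simp only [hJ, dif_pos hx.1]
    exact ⟨S.jet_valid P.am hx.1 hx.2 he, jet_X S hx.1 he h, rfl⟩
  · have hm' : udeg F k ≤ m := le_trans (Nat.le_add_right _ 2) hm
    obtain ⟨hI, h0⟩ := S.integral_fieldT σ h (d := m - udeg F k) (by omega) F k (hcpt P h)
    have hkey : EqOn (fun x => tr3 (fderiv ℝ (fieldT P.u σ h (m - udeg F k) F k) x))
        (fun x => P.cut h x ^ m * dt P.u x ^ σ * (J x).Phi σ m F k) (P.sec h) := by
      intro x hx
      have he := (S.exists_frame hx.1).choose_spec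
      have hev : fieldT P.u σ h (m - udeg F k) F k =ᶠ[𝓝 x] field P.u σ h m F k :=
        eventually_of_mem (hop.mem_nhds hx) fun y hy =>
          (field_eq σ h F k hm' (sub_pos.2 hy.2).ne').symm
      simp only [hev.fderiv_eq, (S.tr3_field P.am hx.1 hx.2 he σ m F k).2, hJ, dif_pos hx.1]
      congr 2
      rw [Real.rpow_def_of_pos (show 0 < dt P.u x from (S.pos x hx.1).det_pos)]
      congr 1
      simp only [Lf, dt]
      have h2 : (n : ℝ) + 2 ≠ 0 := by positivity
      field_simp
    exact ⟨IntegrableOn.congr_fun hI hkey hms,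
      (setIntegral_congr_fun hms hkey).symm.trans h0⟩

end Vale.Agent.P252G.Calc
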