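import Mathlib

/-!
The pointwise quantities of the integral certificate for the affine maximal equation in dimension `n`.

At a point, in a frame orthonormal for `g = D²u`: `L` = differential of `-log det / (n + 2)`,
`U = du / v`, `T = 1 / v` (`v = h - u`), `M` = Euclidean second derivative of `L`,
`A = D³u(·, ·, L)`, `B = D³u(·, ·, U)`.
`Phi σ m F e` is the divergence of `v ^ m * det ^ σ * X^i P^j Y^k * g⁻¹ (w F)` divided by
`v ^ m * det ^ σ`, where `e = (i, j, k)`.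
-/

open Finset

noncomputable section

namespace Vale.Agent.P252G

/-- The pointwise variables. -/
structure Jet (n : ℕ) where
  L : Fin n → ℝ
  U : Fin n → ℝ
  T : ℝ
  M : Fin n → Fin n → ℝ
  A : Fin n → Fin n → ℝ
  B : Fin n → Fin n → ℝ

/-- The seven covector fields `L, U, ML, MU, AL, AU, BU`. -/
inductive Fld where
  | l | u | ml | mu | al | au | bu
  deriving DecidableEq

variable {n : ℕ}

/-- scalar product -/
def dot (a b : Fin n → ℝ) : ℝ := ∑ i, a i * b i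

/-- matrix applied to a vector -/
def app (S : Fin n → Fin n → ℝ) (a : Fin n → ℝ) (i : Fin n) : ℝ := ∑ j, S i j * a j

/-- scalar product of matrices -/
def dot₂ (S R : Fin n → Fin n → ℝ) : ℝ := ∑ i, ∑ j, S i j * R i j

namespace Jet

variable (J : Jet n)

/-- `X = |dL|²` -/
def X : ℝ := dot J.L J.L

/-- `P = ⟨dL, U⟩` -/
def P : ℝ := dot J.L J.U

/-- `Y = |U|²` -/
def Y : ℝ := dot J.U J.U

/-- The relations that hold for a solution. -/
structure Valid : Prop where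
  T_pos : 0 < J.T
  M_symm : ∀ i j, J.M i j = J.M j i
  A_symm : ∀ i j, J.A i j = J.A j i
  B_symm : ∀ i j, J.B i j = J.B j i
  M_trace : ∑ i, J.M i i = -((n : ℝ) + 1) * J.X
  A_trace : ∑ i, J.A i i = -((n : ℝ) + 2) * J.X
  B_trace : ∑ i, J.B i i = -((n : ℝ) + 2) * J.P
  AB : ∀ i, app J.A J.U i = app J.B J.L i

/-- derivative of `U` -/
def dU (i j : Fin n) : ℝ := (if i = j then J.T else 0) + J.U i * J.U j

/-- gradient of `X` -/
def dX (i : Fin n) : ℝ := 2 * app J.M J.L i - app J.A J.L i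

/-- gradient of `P` -/
def dP (i : Fin n) : ℝ := app J.M J.U i + J.T * J.L i + J.U i * J.P - app J.A J.U i

/-- gradient of `Y` -/
def dY (i : Fin n) : ℝ := 2 * J.T * J.U i + 2 * J.Y * J.U i - app J.B J.U i

/-- The fields. -/
def w : Fld → Fin n → ℝ
  | .l => J.L
  | .u => J.U
  | .ml => app J.M J.L
  | .mu => app J.M J.U
  | .al => app J.A J.L
  | .au => app J.A J.U
  | .bu => app J.B J.U

/-- trace of the derivatives of the fields -/
def trDw : Fld → ℝ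
  | .l => -((n : ℝ) + 1) * J.X
  | .u => (n : ℝ) * J.T + J.Y
  | .ml => dot₂ J.M J.M - ((n : ℝ) + 1) * dot J.L J.dX
  | .mu => dot₂ J.M J.dU - ((n : ℝ) + 1) * dot J.U J.dX
  | .al => -((n : ℝ) + 2) * dot J.L (app J.M J.L) - dot₂ J.A J.A + 2 * dot₂ J.A J.M
  | .au => -((n : ℝ) + 2) * dot J.L (app J.M J.U) - dot₂ J.A J.B + dot₂ J.B J.M + dot₂ J.A J.dU
  | .bu => -((n : ℝ) + 2) * dot J.U (app J.M J.U) - dot₂ J.B J.B + 2 * dot₂ J.B J.dU

/-- a monomial in `X, P, Y` -/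
def mono (e : ℕ × ℕ × ℕ) : ℝ := J.X ^ e.1 * J.P ^ e.2.1 * J.Y ^ e.2.2

/-- gradient of a monomial -/
def dmono (e : ℕ × ℕ × ℕ) (i : Fin n) : ℝ :=
  (e.1 : ℝ) * J.X ^ (e.1 - 1) * J.P ^ e.2.1 * J.Y ^ e.2.2 * J.dX i
    + (e.2.1 : ℝ) * J.X ^ e.1 * J.P ^ (e.2.1 - 1) * J.Y ^ e.2.2 * J.dP i
    + (e.2.2 : ℝ) * J.X ^ e.1 * J.P ^ e.2.1 * J.Y ^ (e.2.2 - 1) * J.dY i

/-- the divergence form of one field -/
def Phi (σ : ℝ) (m : ℕ) (F : Fld) (e : ℕ × ℕ × ℕ) : ℝ :=
  J.mono e * (J.trDw F + ((n : ℝ) + 2) * (1 - σ) * dot J.L (J.w F) - m * dot J.U (J.w F))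
    + dot (J.dmono e) (J.w F)

end Jet

/-- number of `U` factors -/
def Fld.degU : Fld → ℕ
  | .l => 0 | .u => 1 | .ml => 0 | .mu => 1 | .al => 0 | .au => 1 | .bu => 2

/-- total `U` degree; the cutoff exponent has to exceed it by two -/
def udeg (F : Fld) (e : ℕ × ℕ × ℕ) : ℕ := F.degU + e.2.1 + 2 * e.2.2

end Vale.Agent.P252G
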