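import Vale.Agent.P252G.Defs
import Vale.Agent.P252G.Div.Jet

/-!
Interface of the divergence module in dimension `n`.
-/

open Set MeasureTheory

noncomputable section

namespace Vale.Agent.P252G

open Vale.Agent.P252B (V)

/-- On each section there is a jet at every point whose forms integrate to zero against
`cut ^ m * det ^ σ`. -/
def DivSpec (n : ℕ) (σ : ℝ) (m : ℕ) : Prop :=
  ∀ (P : Sol n) (h : ℝ), 0 < h → ∃ J : V n → Jet n,
    (∀ x ∈ P.sec h, (J x).Valid ∧ (J x).X = qX P.u x ∧ (J x).T = (P.cut h x)⁻¹) ∧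
    ∀ (F : Fld) (e : ℕ × ℕ × ℕ), udeg F e + 2 ≤ m →
      IntegrableOn (fun x => P.cut h x ^ m * dt P.u x ^ σ * (J x).Phi σ m F e) (P.sec h) volume ∧
      (∫ x in P.sec h, P.cut h x ^ m * dt P.u x ^ σ * (J x).Phi σ m F e) = 0

/-- The pointwise certificate with power `q` of `X`. -/
def PointCert {ι : Type} [Fintype ι] (n q : ℕ) (σ : ℝ) (m : ℕ) (F : ι → Fld)
    (e : ι → ℕ × ℕ × ℕ) (c : ι → ℝ) (ε N : ℝ) : Prop :=
  ∀ J : Jet n, J.Valid → ε * J.X ^ q - N * J.T ^ q ≤ ∑ i, c i * J.Phi σ m (F i) (e i)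

end Vale.Agent.P252G
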