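import Vale.Agent.P252G.Sections
import Vale.Agent.P252G.Div.Main

/-!
The divergence identities in every dimension.
-/

namespace Vale.Agent.P252G

/-- The divergence identities. -/
theorem divSpec (n : ℕ) (σ : ℝ) (m : ℕ) : DivSpec n σ m :=
  Calc.divSpec_of_compact (fun P h => P.isCompact_csec h) σ m

end Vale.Agent.P252G
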