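import Vale.Agent.P252G.Div.Rel

/-!
The pointwise divergence identities.
-/

open Finset Topology Filter

noncomputable section

set_option maxSynthPendingDepth 3

namespace Vale.Agent.P252G.Calc

open Vale.Agent.P252B (IsAM)

variable {n : ℕ} {u : E n → ℝ} {Ω : Set (E n)} {x : (E n)} {e : Fin n → (E n)} {h : ℝ}

/-- `du / v` -/
def Uf (u : (E n) → ℝ) (h : ℝ) (y : (E n)) : (E n) →L[ℝ] ℝ := (h - u y)⁻¹ • du u y

/-- the raised `dL` -/
def zL (u : (E n) → ℝ) (y : (E n)) : (E n) := upv u y (DLf u y)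

/-- the raised `du / v` -/
def zU (u : (E n) → ℝ) (h : ℝ) (y : (E n)) : (E n) := upv u y (Uf u h y)

/-- the covector fields -/
def wf (u : (E n) → ℝ) (h : ℝ) : Fld → (E n) → (E n) →L[ℝ] ℝ
  | .l => DLf u
  | .u => Uf u h
  | .ml => fun y => D2L u y (zL u y)
  | .mu => fun y => D2L u y (zU u h y)
  | .al => fun y => CC u y (zL u y) (zL u y)
  | .au => fun y => CC u y (zL u y) (zU u h y)
  | .bu => fun y => CC u y (zU u h y) (zU u h y)

/-- the monomials -/
def monoF (u : (E n) → ℝ) (h : ℝ) (k : ℕ × ℕ × ℕ) (y : (E n)) : ℝ :=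
  DLf u y (zL u y) ^ k.1 * DLf u y (zU u h y) ^ k.2.1 * Uf u h y (zU u h y) ^ k.2.2

/-- the vector fields -/
def field (u : (E n) → ℝ) (σ h : ℝ) (m : ℕ) (F : Fld) (k : ℕ × ℕ × ℕ) (y : (E n)) : (E n) :=
  ((h - u y) ^ m * Real.exp (-((n : ℝ) + 2) * σ * Lf u y) * monoF u h k y) • upv u y (wf u h F y)

/-- the jet in a frame -/
def jet (u : (E n) → ℝ) (h : ℝ) (e : Fin n → (E n)) (x : (E n)) : Jet n where
  L i := DLf u x (e i)
  U i := Uf u h x (e i)
  T := (h - u x)⁻¹
  M i j := D2L u x (e i) (e j)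
  A i j := ∑ d, CC u x (e i) (e j) (e d) * DLf u x (e d)
  B i j := ∑ d, CC u x (e i) (e j) (e d) * Uf u h x (e d)

namespace Smooth

lemma hasFDerivAt_Uf (S : Smooth Ω u) (hx : x ∈ Ω) (hv : u x < h) :
    ∃ U' : (E n) →L[ℝ] (E n) →L[ℝ] ℝ, HasFDerivAt (Uf u h) U' x ∧
      ∀ a b, U' a b = (h - u x)⁻¹ * gg u x a b + Uf u h x a * Uf u h x b := by
  have hne : h - u x ≠ 0 := (sub_pos.2 hv).ne'
  have h0 : HasFDerivAt (fun y => h - u y) (-du u x) x := (S.dAt S.smooth hx).const_sub h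
  refine ⟨_, ((hasDerivAt_inv hne).comp_hasFDerivAt x h0).fun_smul (S.dAt S.cd_du hx), fun a b => ?_⟩
  simp [Uf, gg]
  field_simp

lemma fderiv_pair (S : Smooth Ω u) (hx : x ∈ Ω) (he : Frame u x e)
    {a b : E n → E n →L[ℝ] ℝ} {a' b' : E n →L[ℝ] E n →L[ℝ] ℝ}
    (ha : HasFDerivAt a a' x) (hb : HasFDerivAt b b' x) :
    DifferentiableAt ℝ (fun y => a y (upv u y (b y))) x ∧
    ∀ c, fderiv ℝ (fun y => a y (upv u y (b y))) x c =
      ∑ i, (a' c (e i) * b x (e i) + a x (e i) * b' c (e i))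
        - ∑ i, ∑ j, CC u x c (e i) (e j) * b x (e i) * a x (e j) := by
  obtain ⟨hz, hz'⟩ := S.gg_fderiv_upv hx hb
  refine ⟨ha.differentiableAt.clm_apply hz, fun c => ?_⟩
  rw [(ha.clm_apply hz.hasFDerivAt).fderiv]
  simp only [add_apply, ContinuousLinearMap.comp_apply,
    ContinuousLinearMap.flip_apply]
  rw [apply_frame he (a x), S.apply_upv hx he]
  simp only [hz', S.upv_frame hx he, map_sum, map_smul, _root_.sum_apply, smul_apply, sub_apply,
    smul_eq_mul, sub_mul, Finset.sum_sub_distrib, Finset.sum_add_distrib, Finset.sum_mul]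
  rw [Finset.sum_comm (f := fun i j => CC u x c (e i) (e j) * b x (e i) * a x (e j))]
  have e1 : ∑ i, b' c (e i) * a x (e i) = ∑ i, a x (e i) * b' c (e i) :=
    Finset.sum_congr rfl fun i _ => mul_comm _ _
  have e2 : ∑ i, b x (e i) * a' c (e i) = ∑ i, a' c (e i) * b x (e i) :=
    Finset.sum_congr rfl fun i _ => mul_comm _ _
  have e3 : ∑ i, ∑ q, b x (e q) * CC u x c (e q) (e i) * a x (e i) =
      ∑ i, ∑ q, CC u x c (e q) (e i) * b x (e q) * a x (e i) :=
    Finset.sum_congr rfl fun i _ => Finset.sum_congr rfl fun q _ => by ring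
  rw [e1, e2, e3]
  ring

/-- lowered derivative of a raised covector in the frame -/
lemma gz (S : Smooth Ω u) (hx : x ∈ Ω) (he : Frame u x e) {a : (E n) → (E n) →L[ℝ] ℝ}
    {a' : (E n) →L[ℝ] (E n) →L[ℝ] ℝ} (ha : HasFDerivAt a a' x) (c : (E n)) (p : Fin n) :
    gg u x (fderiv ℝ (fun y => upv u y (a y)) x c) (e p) =
      a' c (e p) - ∑ q, a x (e q) * CC u x c (e q) (e p) := by
  rw [(S.gg_fderiv_upv hx ha).2, S.upv_frame hx he]
  simp [map_sum]

/-- `D³u` contracted with a covector -/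
def CA (u : E n → ℝ) (x : E n) (e : Fin n → E n) (a : E n →L[ℝ] ℝ) (i j : Fin n) : ℝ :=
  ∑ d, CC u x (e i) (e j) (e d) * a (e d)

lemma CA_eq (S : Smooth Ω u) (hx : x ∈ Ω) (a : E n →L[ℝ] ℝ) (c p : Fin n) :
    ∑ q, a (e q) * CC u x (e c) (e q) (e p) = CA u x e a c p :=
  Finset.sum_congr rfl fun q _ => by rw [S.CC_symm₂ hx (e c) (e q) (e p), mul_comm]

lemma CA_symm (S : Smooth Ω u) (hx : x ∈ Ω) (a : E n →L[ℝ] ℝ) (i j : Fin n) :
    CA u x e a i j = CA u x e a j i :=
  Finset.sum_congr rfl fun d _ => by rw [S.CC_symm₁ hx]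

lemma CA_first (S : Smooth Ω u) (hx : x ∈ Ω) (a : E n →L[ℝ] ℝ) (p c : Fin n) :
    ∑ r, a (e r) * CC u x (e r) (e p) (e c) = CA u x e a c p :=
  Finset.sum_congr rfl fun r _ => by
    rw [S.CC_symm₁ hx (e r) (e p) (e c), S.CC_symm₂ hx (e p) (e r) (e c),
      S.CC_symm₁ hx (e p) (e c) (e r), mul_comm]

lemma dot₂_comm (S R : Fin n → Fin n → ℝ) : dot₂ S R = dot₂ R S :=
  Finset.sum_congr rfl fun _ _ => Finset.sum_congr rfl fun _ _ => mul_comm _ _

lemma trace_bil (S : Smooth Ω u) (hx : x ∈ Ω) (he : Frame u x e) {a : E n → E n →L[ℝ] ℝ}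
    {a' : E n →L[ℝ] E n →L[ℝ] ℝ} (ha : HasFDerivAt a a' x)
    {B : E n → E n →L[ℝ] E n →L[ℝ] ℝ} {B' : E n →L[ℝ] E n →L[ℝ] E n →L[ℝ] ℝ}
    (hB : HasFDerivAt B B' x) (hs : ∀ i j, B x (e i) (e j) = B x (e j) (e i)) :
    DifferentiableAt ℝ (fun y => B y (upv u y (a y))) x ∧
    ∑ c, fderiv ℝ (fun y => B y (upv u y (a y))) x (e c) (e c) =
      (∑ p, a x (e p) * ∑ c, B' (e c) (e p) (e c)) +
        dot₂ (fun c p => a' (e c) (e p)) (fun c p => B x (e c) (e p)) -
        dot₂ (CA u x e (a x)) (fun c p => B x (e c) (e p)) := by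
  have hz := (S.gg_fderiv_upv hx ha).1
  refine ⟨hB.differentiableAt.clm_apply hz, ?_⟩
  rw [(hB.clm_apply hz.hasFDerivAt).fderiv]
  simp only [add_apply, ContinuousLinearMap.comp_apply, ContinuousLinearMap.flip_apply,
    Finset.sum_add_distrib]
  have h1 : ∀ c, B x (fderiv ℝ (fun y => upv u y (a y)) x (e c)) (e c) =
      ∑ p, (a' (e c) (e p) - CA u x e (a x) c p) * B x (e c) (e p) := fun c => by
    have h1 := apply_frame he ((B x).flip (e c)) (fderiv ℝ (fun y => upv u y (a y)) x (e c))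
    simp only [ContinuousLinearMap.flip_apply] at h1
    rw [h1]
    simp only [S.gz hx he ha, S.CA_eq hx]
    exact Finset.sum_congr rfl fun p _ => by rw [hs p c]
  have h2 : ∑ c, B' (e c) (upv u x (a x)) (e c) = ∑ p, a x (e p) * ∑ c, B' (e c) (e p) (e c) := by
    rw [S.upv_frame hx he]
    simp only [map_sum, map_smul, _root_.sum_apply, smul_apply, smul_eq_mul, Finset.mul_sum]
    exact Finset.sum_comm
  rw [h2]
  simp only [h1, dot₂, sub_mul, Finset.sum_sub_distrib]
  ring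

lemma trace_cub (S : Smooth Ω u) (hx : x ∈ Ω) (he : Frame u x e) {a b : E n → E n →L[ℝ] ℝ}
    {a' b' : E n →L[ℝ] E n →L[ℝ] ℝ} (ha : HasFDerivAt a a' x) (hb : HasFDerivAt b b' x) :
    DifferentiableAt ℝ (fun y => CC u y (upv u y (a y)) (upv u y (b y))) x ∧
    ∑ c, fderiv ℝ (fun y => CC u y (upv u y (a y)) (upv u y (b y))) x (e c) (e c) =
      (∑ p, ∑ r, a x (e p) * b x (e r) * ∑ c, fderiv ℝ (CC u) x (e c) (e p) (e r) (e c)) +
      (dot₂ (fun c p => a' (e c) (e p)) (CA u x e (b x)) -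
        dot₂ (CA u x e (a x)) (CA u x e (b x))) +
      (dot₂ (fun c p => b' (e c) (e p)) (CA u x e (a x)) -
        dot₂ (CA u x e (b x)) (CA u x e (a x))) := by
  have hza := (S.gg_fderiv_upv hx ha).1
  have hzb := (S.gg_fderiv_upv hx hb).1
  have hC := S.dAt S.cd_CC hx
  refine ⟨(hC.differentiableAt.clm_apply hza).clm_apply hzb, ?_⟩
  rw [((hC.clm_apply hza.hasFDerivAt).clm_apply hzb.hasFDerivAt).fderiv]
  simp only [add_apply, ContinuousLinearMap.comp_apply, ContinuousLinearMap.flip_apply,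
    Finset.sum_add_distrib]
  have h1 : ∀ c, CC u x (upv u x (a x)) (fderiv ℝ (fun y => upv u y (b y)) x (e c)) (e c) =
      ∑ r, (b' (e c) (e r) - CA u x e (b x) c r) * CA u x e (a x) c r := fun c => by
    have h1 := apply_frame he ((CC u x (upv u x (a x))).flip (e c))
      (fderiv ℝ (fun y => upv u y (b y)) x (e c))
    simp only [ContinuousLinearMap.flip_apply] at h1
    rw [h1]
    simp only [S.gz hx he hb, S.CA_eq hx]
    refine Finset.sum_congr rfl fun r _ => ?_
    rw [S.upv_frame hx he]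
    simp [map_sum, S.CA_first hx]
  have h2 : ∀ c, CC u x (fderiv ℝ (fun y => upv u y (a y)) x (e c)) (upv u x (b x)) (e c) =
      ∑ p, (a' (e c) (e p) - CA u x e (a x) c p) * CA u x e (b x) c p := fun c => by
    have h1 := apply_frame he (((CC u x).flip (upv u x (b x))).flip (e c))
      (fderiv ℝ (fun y => upv u y (a y)) x (e c))
    simp only [ContinuousLinearMap.flip_apply] at h1
    rw [h1]
    simp only [S.gz hx he ha, S.CA_eq hx]
    refine Finset.sum_congr rfl fun p _ => ?_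
    rw [S.upv_frame hx he]
    simp only [map_sum, map_smul, _root_.sum_apply, smul_apply, smul_eq_mul]
    congr 1
    rw [← S.CA_first hx (b x) p c]
    exact Finset.sum_congr rfl fun r _ => by rw [S.CC_symm₁ hx (e p) (e r) (e c)]
  have h3 : ∑ c, fderiv ℝ (CC u) x (e c) (upv u x (a x)) (upv u x (b x)) (e c) =
      ∑ p, ∑ r, a x (e p) * b x (e r) * ∑ c, fderiv ℝ (CC u) x (e c) (e p) (e r) (e c) := by
    rw [S.upv_frame hx he, S.upv_frame hx he]
    simp only [map_sum, map_smul, _root_.sum_apply, smul_apply, smul_eq_mul, Finset.mul_sum]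
    rw [Finset.sum_comm]
    refine (Finset.sum_congr rfl fun r _ => Finset.sum_comm).trans ?_
    rw [Finset.sum_comm]
    exact Finset.sum_congr rfl fun p _ => Finset.sum_congr rfl fun r _ =>
      Finset.sum_congr rfl fun c _ => by ring
  rw [h3]
  simp only [h1, h2, dot₂, sub_mul, Finset.sum_sub_distrib]
  ring

lemma jet_valid (S : Smooth Ω u) (hAM : IsAM Ω u) (hx : x ∈ Ω) (hv : u x < h)
    (he : Frame u x e) : (jet u h e x).Valid := by
  have hA : ∀ w : (E n) →L[ℝ] ℝ, ∑ i, ∑ d, CC u x (e i) (e i) (e d) * w (e d) =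
      -((n : ℝ) + 2) * ∑ d, DLf u x (e d) * w (e d) := fun w => by
    rw [Finset.sum_comm, Finset.mul_sum]
    refine Finset.sum_congr rfl fun d _ => ?_
    rw [← Finset.sum_mul, ← mul_assoc, ← S.trC hx he (e d)]
    congr 1
    exact Finset.sum_congr rfl fun i _ => by
      rw [S.CC_symm₂ hx (e i) (e i), S.CC_symm₁ hx (e i) (e d)]
  refine ⟨inv_pos.2 (sub_pos.2 hv), fun i j => S.D2L_symm hx _ _, ?_, ?_, S.trM hAM hx he,
    hA _, hA _, fun i => ?_⟩
  · intro i j
    simp only [jet]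
    exact Finset.sum_congr rfl fun d _ => by rw [S.CC_symm₁ hx]
  · intro i j
    simp only [jet]
    exact Finset.sum_congr rfl fun d _ => by rw [S.CC_symm₁ hx]
  · simp only [app, jet, Finset.sum_mul]
    rw [Finset.sum_comm]
    exact Finset.sum_congr rfl fun a _ => Finset.sum_congr rfl fun b _ => by
      rw [S.CC_symm₂ hx (e i) (e b)]; ring

lemma fderiv_scalars (S : Smooth Ω u) (hx : x ∈ Ω) (hv : u x < h) (he : Frame u x e) :
    (DifferentiableAt ℝ (fun y => DLf u y (zL u y)) x ∧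
      ∀ k, fderiv ℝ (fun y => DLf u y (zL u y)) x (e k) = (jet u h e x).dX k) ∧
    (DifferentiableAt ℝ (fun y => DLf u y (zU u h y)) x ∧
      ∀ k, fderiv ℝ (fun y => DLf u y (zU u h y)) x (e k) = (jet u h e x).dP k) ∧
    (DifferentiableAt ℝ (fun y => Uf u h y (zU u h y)) x ∧
      ∀ k, fderiv ℝ (fun y => Uf u h y (zU u h y)) x (e k) = (jet u h e x).dY k) := by
  obtain ⟨U', hU, hU'⟩ := S.hasFDerivAt_Uf hx hv
  have hL := S.dAt S.cd_DLf hx
  have hA : ∀ (k : Fin n) (a b : E n →L[ℝ] ℝ),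
      ∑ i, ∑ j, CC u x (e k) (e i) (e j) * b (e i) * a (e j) =
        ∑ i, CA u x e a k i * b (e i) := fun k a b =>
    Finset.sum_congr rfl fun i _ => by
      rw [CA, Finset.sum_mul]
      exact Finset.sum_congr rfl fun j _ => by ring
  refine ⟨⟨(S.fderiv_pair hx he hL hL).1, fun k => ?_⟩, ⟨(S.fderiv_pair hx he hL hU).1, fun k => ?_⟩,
    ⟨(S.fderiv_pair hx he hU hU).1, fun k => ?_⟩⟩
  · unfold zL
    rw [(S.fderiv_pair hx he hL hL).2, hA]
    simp only [Jet.dX, app, jet, CA, Finset.mul_sum, ← Finset.sum_add_distrib]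
    congr 1
    exact Finset.sum_congr rfl fun i _ => by rw [D2L]; ring
  · unfold zU
    rw [(S.fderiv_pair hx he hL hU).2]
    simp only [hU', he k, Jet.dP, Jet.P, dot, app, jet, Finset.mul_sum, Finset.sum_add_distrib,
      mul_add, ite_mul, mul_ite, mul_one, mul_zero, zero_mul, Finset.sum_ite_eq, Finset.mem_univ,
      if_true]
    have e1 : ∑ i, ∑ j, CC u x (e k) (e i) (e j) * Uf u h x (e i) * DLf u x (e j) =
        ∑ i, (∑ d, CC u x (e k) (e i) (e d) * DLf u x (e d)) * Uf u h x (e i) := hA k _ _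
    have e2 : ∑ i, DLf u x (e i) * (Uf u h x (e k) * Uf u h x (e i)) =
        ∑ i, Uf u h x (e k) * (DLf u x (e i) * Uf u h x (e i)) :=
      Finset.sum_congr rfl fun i _ => by ring
    simp only [Finset.sum_mul] at e1 ⊢
    rw [e1, e2]
    simp only [D2L]
    ring
  · unfold zU
    rw [(S.fderiv_pair hx he hU hU).2]
    simp only [hU', he k, Jet.dY, Jet.Y, dot, app, jet, Finset.mul_sum, Finset.sum_add_distrib,
      mul_add, add_mul, ite_mul, mul_ite, mul_one, mul_zero, zero_mul, Finset.sum_ite_eq,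
      Finset.mem_univ, if_true]
    have e1 : ∑ i, ∑ j, CC u x (e k) (e i) (e j) * Uf u h x (e i) * Uf u h x (e j) =
        ∑ i, (∑ d, CC u x (e k) (e i) (e d) * Uf u h x (e d)) * Uf u h x (e i) := hA k _ _
    have e2 : ∑ i, Uf u h x (e i) * (Uf u h x (e k) * Uf u h x (e i)) =
        ∑ i, Uf u h x (e k) * (Uf u h x (e i) * Uf u h x (e i)) :=
      Finset.sum_congr rfl fun i _ => by ring
    have e3 : ∑ i, Uf u h x (e k) * Uf u h x (e i) * Uf u h x (e i) =
        ∑ i, Uf u h x (e k) * (Uf u h x (e i) * Uf u h x (e i)) :=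
      Finset.sum_congr rfl fun i _ => by ring
    simp only [Finset.sum_mul] at e1 ⊢
    rw [e1, e2, e3]
    ring_nf
    simp only [← Finset.mul_sum, ← Finset.sum_mul]
    ring

lemma trace_wf (S : Smooth Ω u) (hAM : IsAM Ω u) (hx : x ∈ Ω) (hv : u x < h)
    (he : Frame u x e) (F : Fld) :
    DifferentiableAt ℝ (wf u h F) x ∧
      ∑ c, fderiv ℝ (wf u h F) x (e c) (e c) = (jet u h e x).trDw F ∧
      ∀ i, wf u h F x (e i) = (jet u h e x).w F i := by
  obtain ⟨U', hU, hU'⟩ := S.hasFDerivAt_Uf hx hv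
  have hL := S.dAt S.cd_DLf hx
  have hM := S.dAt S.cd_D2L hx
  set J := jet u h e x with hJdef
  have hdX : ∀ p, fderiv ℝ (fun y => DLf u y (upv u y (DLf u y))) x (e p) = J.dX p :=
    (S.fderiv_scalars hx hv he).1.2
  have sM := fun a b => S.D2L_symm hx (e a) (e b)
  have hMf : (fun c p => fderiv ℝ (DLf u) x (e c) (e p)) = J.M := rfl
  have hDU : (fun c p => U' (e c) (e p)) = J.dU := by
    funext c p
    rw [hU', he c p]
    simp [hJdef, Jet.dU, jet]
  have hJA : CA u x e (DLf u x) = J.A := rfl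
  have hJB : CA u x e (Uf u h x) = J.B := rfl
  have hM2 : (fun c p => D2L u x (e c) (e p)) = J.M := rfl
  have tM : ∀ a : E n →L[ℝ] ℝ, ∑ p, a (e p) * ∑ c, fderiv ℝ (D2L u) x (e c) (e p) (e c) =
      dot₂ (CA u x e a) J.M - ((n : ℝ) + 1) * dot (fun i => a (e i)) J.dX := fun a => by
    have h0 : ∀ p, ∑ c, fderiv ℝ (D2L u) x (e c) (e p) (e c) =
        (∑ i, ∑ j, D2L u x (e i) (e j) * CC u x (e p) (e j) (e i))
          - ((n : ℝ) + 1) * J.dX p := fun p => by
      have h1 := S.trDM hAM hx he (e p)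
      rw [hdX] at h1
      rw [Finset.sum_congr rfl fun c _ => S.DM_symm₁ hx (e c) (e p) (e c)]
      linarith
    simp only [h0, mul_sub, Finset.sum_sub_distrib]
    congr 1
    · simp only [dot₂, ← S.CA_first hx, Finset.sum_mul, Finset.mul_sum]
      rw [Finset.sum_comm]
      refine Finset.sum_congr rfl fun i _ => ?_
      rw [Finset.sum_comm]
      exact Finset.sum_congr rfl fun j _ => Finset.sum_congr rfl fun p _ => by
        rw [← hM2]; ring
    · rw [dot, Finset.mul_sum]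
      exact Finset.sum_congr rfl fun p _ => by ring
  have tC : ∀ a b : E n →L[ℝ] ℝ,
      ∑ p, ∑ r, a (e p) * b (e r) * ∑ c, fderiv ℝ (CC u) x (e c) (e p) (e r) (e c) =
      dot₂ (CA u x e a) (CA u x e b)
        - ((n : ℝ) + 2) * dot (fun i => a (e i)) (app J.M fun i => b (e i)) := fun a b => by
    have h0 : ∀ p r, ∑ c, fderiv ℝ (CC u) x (e c) (e p) (e r) (e c) =
        (∑ i, ∑ j, CC u x (e r) (e i) (e j) * CC u x (e p) (e j) (e i))
          - ((n : ℝ) + 2) * D2L u x (e p) (e r) := fun p r => by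
      have h1 := S.trDC hx he (e p) (e r)
      rw [Finset.sum_congr rfl fun c _ => (S.DC_symm₁ hx (e c) (e p) (e r) (e c)).trans
        (S.DC_symm₂ hx (e p) (e c) (e r) (e c))]
      linarith
    simp only [h0, mul_sub, Finset.sum_sub_distrib]
    congr 1
    · have h3 : ∀ p, ∑ r, a (e p) * b (e r) *
          ∑ i, ∑ j, CC u x (e r) (e i) (e j) * CC u x (e p) (e j) (e i) =
          ∑ i, ∑ j, (a (e p) * CC u x (e p) (e j) (e i)) *
            CA u x e b j i := fun p => by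
        simp only [← S.CA_first hx, Finset.mul_sum]
        rw [Finset.sum_comm]
        refine Finset.sum_congr rfl fun i _ => ?_
        rw [Finset.sum_comm]
        exact Finset.sum_congr rfl fun j _ => Finset.sum_congr rfl fun r _ => by ring
      simp only [h3, dot₂]
      rw [Finset.sum_comm]
      refine Finset.sum_congr rfl fun i _ => ?_
      rw [Finset.sum_comm]
      refine Finset.sum_congr rfl fun j _ => ?_
      rw [← Finset.sum_mul, S.CA_first hx, S.CA_symm hx b]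
    · simp only [dot, app, Finset.mul_sum]
      exact Finset.sum_congr rfl fun p _ => Finset.sum_congr rfl fun r _ => by
        show _ = _ * (_ * (D2L u x (e p) (e r) * _))
        ring
  have hJL : (fun i => DLf u x (e i)) = J.L := rfl
  have hJU : (fun i => Uf u h x (e i)) = J.U := rfl
  cases F
  · refine ⟨hL.differentiableAt, ?_, fun i => rfl⟩
    exact S.trM hAM hx he
  · refine ⟨hU.differentiableAt, ?_, fun i => rfl⟩
    simp only [wf, hU.fderiv, hU', he _ _, if_true, Finset.sum_add_distrib]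
    simp only [Jet.trDw, Jet.Y, dot, hJdef, jet, mul_one]
    simp
  · obtain ⟨d1, d2⟩ := S.trace_bil hx he hL hM fun i j => sM i j
    refine ⟨d1, d2.trans ?_, fun i => ?_⟩
    · rw [tM, hMf, hM2, hJA, hJL, Jet.trDw]
      ring
    · simp only [wf, zL, S.upv_frame hx he, Jet.w, app, map_sum, map_smul, _root_.sum_apply,
        smul_apply, smul_eq_mul]
      exact Finset.sum_congr rfl fun j _ => by
        rw [← hJL, ← hM2]; show _ = D2L u x (e i) (e j) * DLf u x (e j); rw [sM i j]; ring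
  · obtain ⟨d1, d2⟩ := S.trace_bil hx he hU hM fun i j => sM i j
    refine ⟨d1, d2.trans ?_, fun i => ?_⟩
    · rw [tM, hDU, hM2, hJB, hJU, Jet.trDw, dot₂_comm J.dU]
      ring
    · simp only [wf, zU, S.upv_frame hx he, Jet.w, app, map_sum, map_smul, _root_.sum_apply,
        smul_apply, smul_eq_mul]
      exact Finset.sum_congr rfl fun j _ => by
        rw [← hJU, ← hM2]; show _ = D2L u x (e i) (e j) * Uf u h x (e j); rw [sM i j]; ring
  · obtain ⟨d1, d2⟩ := S.trace_cub hx he hL hL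
    refine ⟨d1, d2.trans ?_, fun i => ?_⟩
    · rw [tC, hMf, hJA, hJL, Jet.trDw, dot₂_comm J.M]
      ring
    · simp only [wf, zL, S.upv_frame hx he, Jet.w, app, ← hJA, ← hJL, ← S.CA_first hx, map_sum,
        map_smul, _root_.sum_apply, smul_apply, smul_eq_mul, Finset.mul_sum, Finset.sum_mul]
      exact Finset.sum_congr rfl fun j _ => Finset.sum_congr rfl fun d _ => by
        first | ring | (rw [S.CC_symm₁ hx (e j) (e d) (e i)]; ring)
  · obtain ⟨d1, d2⟩ := S.trace_cub hx he hL hU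
    refine ⟨d1, d2.trans ?_, fun i => ?_⟩
    · rw [tC, hMf, hDU, hJA, hJB, hJL, hJU, Jet.trDw, dot₂_comm J.M, dot₂_comm J.B J.A,
        dot₂_comm J.dU]
      ring
    · simp only [wf, zL, zU, S.upv_frame hx he, Jet.w, app, ← hJA, ← hJU, ← S.CA_first hx, map_sum,
        map_smul, _root_.sum_apply, smul_apply, smul_eq_mul, Finset.mul_sum, Finset.sum_mul]
      exact Finset.sum_congr rfl fun j _ => Finset.sum_congr rfl fun d _ => by
        first | ring | (rw [S.CC_symm₁ hx (e j) (e d) (e i)]; ring)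
  · obtain ⟨d1, d2⟩ := S.trace_cub hx he hU hU
    refine ⟨d1, d2.trans ?_, fun i => ?_⟩
    · rw [tC, hDU, hJB, hJU, Jet.trDw, dot₂_comm J.dU]
      ring
    · simp only [wf, zU, S.upv_frame hx he, Jet.w, app, ← hJB, ← hJU, ← S.CA_first hx, map_sum,
        map_smul, _root_.sum_apply, smul_apply, smul_eq_mul, Finset.mul_sum, Finset.sum_mul]
      exact Finset.sum_congr rfl fun j _ => Finset.sum_congr rfl fun d _ => by
        first | ring | (rw [S.CC_symm₁ hx (e j) (e d) (e i)]; ring)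

/-- The divergence of a field. -/
lemma tr3_field (S : Smooth Ω u) (hAM : IsAM Ω u) (hx : x ∈ Ω) (hv : u x < h)
    (he : Frame u x e) (σ : ℝ) (m : ℕ) (F : Fld) (k : ℕ × ℕ × ℕ) :
    DifferentiableAt ℝ (field u σ h m F k) x ∧
    tr3 (fderiv ℝ (field u σ h m F k) x) =
      (h - u x) ^ m * Real.exp (-((n : ℝ) + 2) * σ * Lf u x) * (jet u h e x).Phi σ m F k := by
  obtain ⟨hw, hw1, hw2⟩ := S.trace_wf hAM hx hv he F
  obtain ⟨⟨dX0, dX1⟩, ⟨dP0, dP1⟩, ⟨dY0, dY1⟩⟩ := S.fderiv_scalars hx hv he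
  obtain ⟨hz, hz'⟩ := S.gg_fderiv_upv hx hw.hasFDerivAt
  have hp : HasFDerivAt (fun y => (h - u y) ^ m * Real.exp (-((n : ℝ) + 2) * σ * Lf u y) * monoF u h k y) _ x :=
    (((HasFDerivAt.pow ((S.dAt S.smooth hx).const_sub h) m)).mul ((S.dAt S.cd_Lf hx).const_mul (-((n : ℝ) + 2) * σ)).exp).mul
      (((HasFDerivAt.pow dX0.hasFDerivAt k.1).mul (HasFDerivAt.pow dP0.hasFDerivAt k.2.1)).mul
        (HasFDerivAt.pow dY0.hasFDerivAt k.2.2))
  refine ⟨hp.differentiableAt.smul hz, ?_⟩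
  have hC : ∀ q, ∑ c, CC u x (e c) (e q) (e c) = -((n : ℝ) + 2) * DLf u x (e q) := fun q => by
    rw [← S.trC hx he]
    exact Finset.sum_congr rfl fun c _ => S.CC_symm₁ hx _ _ _
  have hX : DLf u x (zL u x) = (jet u h e x).X := by
    rw [zL, S.apply_upv hx he]; rfl
  have hP : DLf u x (zU u h x) = (jet u h e x).P := by
    rw [zU, S.apply_upv hx he]
    exact Finset.sum_congr rfl fun i _ => mul_comm _ _
  have hY : Uf u h x (zU u h x) = (jet u h e x).Y := by
    rw [zU, S.apply_upv hx he]; rfl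
  have hvU : ∀ c, fderiv ℝ u x (e c) = (h - u x) * (jet u h e x).U c := fun c => by
    simp [jet, Uf, du, (sub_pos.2 hv).ne']
  have hfl : field u σ h m F k =
      fun y => ((h - u y) ^ m * Real.exp (-((n : ℝ) + 2) * σ * Lf u y) * monoF u h k y) •
        upv u y (wf u h F y) := rfl
  rw [tr3_frame he, hfl, (hp.fun_smul hz.hasFDerivAt).fderiv]
  have hterm : ∀ c : Fin n, gg u x ((upv u x (wf u h F x))) (e c) = (jet u h e x).w F c :=
    fun c => by rw [S.gg_upv hx, hw2]
  have hsum : ∑ c, CC u x (e c) (upv u x (wf u h F x)) (e c) =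
      -((n : ℝ) + 2) * dot (jet u h e x).L ((jet u h e x).w F) := by
    rw [S.upv_frame hx he]
    simp only [map_sum, map_smul, _root_.sum_apply, smul_apply, smul_eq_mul]
    rw [Finset.sum_comm, dot, Finset.mul_sum]
    refine Finset.sum_congr rfl fun q _ => ?_
    rw [← Finset.mul_sum, hC, hw2]
    show _ = -((n : ℝ) + 2) * (DLf u x (e q) * _)
    ring
  have hdv : m * (h - u x) ^ (m - 1) * (h - u x) = m * (h - u x) ^ m := by
    cases m with
    | zero => simp
    | succ n => rw [Nat.add_sub_cancel, pow_succ]; ring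
  simp only [add_apply, smul_apply, ContinuousLinearMap.smulRight_apply,
    ContinuousLinearMap.toSpanSingleton_apply, map_add, map_smul, hterm, hz', sub_apply,
    smul_eq_mul, neg_apply, hvU, dX1, dP1, dY1, hX, hP, hY, monoF, Finset.sum_add_distrib,
    ← Finset.mul_sum, Finset.sum_sub_distrib, hw1, hsum]
  have hLc : ∀ c, fderiv ℝ (Lf u) x (e c) = (jet u h e x).L c := fun c => rfl
  simp only [hLc, Pi.mul_apply, hX, hP, nsmul_eq_mul, Jet.Phi, Jet.mono, Jet.dmono, dot]
  generalize h - u x = v at hdv ⊢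
  generalize Real.exp (-((n : ℝ) + 2) * σ * Lf u x) = ρ
  simp only [add_mul, mul_add, sub_mul, mul_sub, Finset.sum_add_distrib, Finset.sum_sub_distrib]
  simp only [mul_assoc, neg_mul, mul_neg, Finset.sum_neg_distrib, ← Finset.mul_sum]
  linear_combination (-(ρ *
    ((jet u h e x).X ^ k.1 * (jet u h e x).P ^ k.2.1 * (jet u h e x).Y ^ k.2.2) *
    ∑ i, (jet u h e x).U i * (jet u h e x).w F i)) * hdv

end Smooth

end Vale.Agent.P252G.Calc
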